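import Vale.Agent.P281.H864.K.Herm
import Vale.Agent.P281.H603.K.Base
import Vale.Agent.P281.H64.TK.SpecT

/-!
# P281, T-T, block TOC (helper864): transport of additive functions, Jacobian determinants
-/

open Set Filter Metric MeasureTheory
open scoped Topology ContDiff ComplexConjugate

set_option linter.unusedSectionVars false
set_option linter.deprecated false
set_option linter.unusedVariables false

noncomputable section

namespace Vale.Agent.P281.H864.Toc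

open Vale.Agent.P281.H64.TK Vale.Agent.P272.K Matrix
open Vale.Agent.P281.H864.K (uniq ball13 gr gr_change ca_differentiableAt jac_congr)

variable {d : ℕ} {E Γ : Type} [TopologicalSpace E] [Group Γ] [MulAction Γ E]

/-- `h` has additive components -/
def AddV (S : Sheets d E Γ) (h : E → Cm d) : Prop := ∀ a, ∃ b, Add S (fun e => h e a) b

/-- transformation rule of the Jacobian determinant -/
theorem minor_change {S' : Sheets d E Γ} {h : E → Cm d} (hh : AddV S' h)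
    {q : Cm d → E} {v : Cm d} {j : Fin S'.N} {w : Cm d} (hw : w ∈ ball (0 : Cm d) 3)
    {γ : Γ} {θ : Cm d → Cm d} (hθ : DifferentiableAt ℂ θ v) (he : θ v = w)
    (h3 : ∀ᶠ u in 𝓝 v, q u = γ • S'.σ j (θ u)) :
    (Matrix.of fun a k => dd k (fun u => h (q u) a) v).det =
      S'.minor h j w * (jac θ v).det := by
  have h1 : (Matrix.of fun a k => dd k (fun u => h (q u) a) v) =
      (Matrix.of fun a k => dd k (fun z => h (S'.σ j z) a) w) * jac θ v := by
    ext a k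
    obtain ⟨b, hb⟩ := hh a
    have := congrFun (gr_change (S' := S') hb hw hθ he h3) k
    simp only [Matrix.of_apply, Matrix.mul_apply]
    rw [this]
    rfl
  rw [h1, Matrix.det_mul]
  rfl

variable {E' Γ' : Type} [TopologicalSpace E'] [Group Γ'] [MulAction Γ' E']

/-- `τ` is holomorphic, with nonzero Jacobian determinant, in the sheets -/
def IsoHol (S : Sheets d E Γ) (S' : Sheets d E' Γ') (τ : E → E') : Prop :=
  ∀ i j, ∀ z ∈ ball (0 : Cm d) 3, ∀ z' ∈ ball (0 : Cm d) 3, ∀ γ : Γ',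
    τ (S.σ i z) = γ • S'.σ j z' → ∃ θ : Cm d → Cm d, AnalyticAt ℂ θ z ∧ θ z = z' ∧
      (jac θ z).det ≠ 0 ∧ ∀ᶠ u in 𝓝 z, τ (S.σ i u) = γ • S'.σ j (θ u)

theorem add_iso {S : Sheets d E Γ} {S' : Sheets d E' Γ'} {τ : E → E'} {ρ : Γ → Γ'}
    (hτ : ∀ γ e, τ (γ • e) = ρ γ • τ e) (hi : IsoHol S S' τ) {h : E' → ℂ} {c : Γ' → ℂ}
    (H : Add S' h c) : Add S (fun e => h (τ e)) (fun γ => c (ρ γ)) where
  add γ e := by rw [hτ, H.add]
  hol := by
    intro i z hz
    obtain ⟨γ, j, w, hw, he⟩ := S'.cover (τ (S.σ i z))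
    have hw3 : w ∈ ball (0 : Cm d) 3 := ball13 (by simpa using hw)
    obtain ⟨θ, h1, h2, h3, h4⟩ := hi i j z hz w hw3 γ he.symm
    have h5 : DifferentiableAt ℂ (fun u => h (S'.σ j (θ u)) + c γ) z := by
      have h6 : DifferentiableAt ℂ (fun z => h (S'.σ j z)) (θ z) := by
        rw [h2]
        exact (H.hol j).differentiableAt (isOpen_ball.mem_nhds hw3)
      exact (DifferentiableAt.comp z h6 h1.differentiableAt).add_const _
    refine (h5.congr_of_eventuallyEq ?_).differentiableWithinAt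
    filter_upwards [h4] with u hu
    rw [hu, H.add]

theorem addV_iso {S : Sheets d E Γ} {S' : Sheets d E' Γ'} {τ : E → E'} {ρ : Γ → Γ'}
    (hτ : ∀ γ e, τ (γ • e) = ρ γ • τ e) (hi : IsoHol S S' τ) {h : E' → Cm d}
    (H : AddV S' h) : AddV S (fun e => h (τ e)) := by
  intro a
  obtain ⟨b, hb⟩ := H a
  exact ⟨_, add_iso hτ hi hb⟩

theorem minor_iso {S : Sheets d E Γ} {S' : Sheets d E' Γ'} {τ : E → E'} (hi : IsoHol S S' τ)
    {h : E' → Cm d} (H : AddV S' h) {i : Fin S.N} {j : Fin S'.N} {z w : Cm d}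
    (hz : z ∈ ball (0 : Cm d) 3) (hw : w ∈ ball (0 : Cm d) 3) {γ : Γ'}
    (he : τ (S.σ i z) = γ • S'.σ j w) :
    ∃ J : ℂ, J ≠ 0 ∧ S.minor (fun e => h (τ e)) i z = S'.minor h j w * J := by
  obtain ⟨θ, h1, h2, h3, h4⟩ := hi i j z hz w hw γ he
  refine ⟨(jac θ z).det, h3, ?_⟩
  exact minor_change (S' := S') H (q := fun u => τ (S.σ i u)) hw h1.differentiableAt h2 h4

/-- the Jacobian determinants in different sheets -/
theorem minor_sheet {S : Sheets d E Γ} {h : E → Cm d} (H : AddV S h) {i j : Fin S.N} {z w : Cm d}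
    (hz : z ∈ ball (0 : Cm d) 3) (hw : w ∈ ball (0 : Cm d) 3) {γ : Γ}
    (he : S.σ i z = γ • S.σ j w) : S.minor h i z = 0 ↔ S.minor h j w = 0 := by
  obtain ⟨θ, h1, h2, h3, h4⟩ := K.holCompat_refl S i j z hz w hw γ he
  have h5 : S.minor h i z = S.minor h j w * (jac θ z).det :=
    minor_change (S' := S) H (q := S.σ i) hw h1.differentiableAt h2 h4
  rw [h5, mul_eq_zero, or_iff_left h3]

/-- `IsTor` is transported by isomorphisms -/
theorem isTor_iso {S : Sheets d E Γ} {S' : Sheets d E' Γ'} {τ : E → E'} {ρ : Γ → Γ'}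
    (hτ : ∀ γ e, τ (γ • e) = ρ γ • τ e) (hi : IsoHol S S' τ) (h : S'.IsTor) : S.IsTor := by
  obtain ⟨h, H, hm⟩ := h
  refine ⟨fun e => h (τ e), addV_iso hτ hi H, fun i z hz => ?_⟩
  obtain ⟨γ, j, w, hw, he⟩ := S'.cover (τ (S.σ i z))
  have hw3 : w ∈ ball (0 : Cm d) 3 := ball13 (by simpa using hw)
  obtain ⟨J, hJ, h1⟩ := minor_iso hi H hz hw3 he.symm
  rw [h1]
  exact mul_ne_zero (hm j w hw3) hJ

/-- there are `d` additive functions, with Jacobian determinant not identically zero -/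
def Nd (S : Sheets d E Γ) : Prop :=
  ∃ h : E → Cm d, AddV S h ∧ ∃ i, ∃ z ∈ ball (0 : Cm d) 3, S.minor h i z ≠ 0

theorem nd_of_gauss {S : Sheets d E Γ} {i : Fin S.N} {z : Cm d} (hz : z ∈ ball (0 : Cm d) 3)
    {r : ℕ} (h : S.GaussAt r i z) : Nd S := by
  obtain ⟨h, h1, h2, -⟩ := h
  exact ⟨h 0, h1 0, i, z, hz, h2⟩

theorem nd_iso [ContinuousConstSMul Γ' E'] {S : Sheets d E Γ} {S' : Sheets d E' Γ'} {τ : E → E'}
    {ρ : Γ → Γ'} (hτ : ∀ γ e, τ (γ • e) = ρ γ • τ e) (hs : Function.Surjective τ)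
    (hρ : Function.Surjective ρ) (hi : IsoHol S S' τ) (h : Nd S') : Nd S := by
  obtain ⟨h, H, j, w, hw, hm⟩ := h
  refine ⟨fun e => h (τ e), addV_iso hτ hi H, ?_⟩
  obtain ⟨e, he⟩ := hs (S'.σ j w)
  obtain ⟨γ, i, z, hz, rfl⟩ := S.cover e
  have hz3 : z ∈ ball (0 : Cm d) 3 := ball13 (by simpa using hz)
  have h1 : τ (S.σ i z) = (ρ γ)⁻¹ • S'.σ j w := by
    rw [← he, hτ, inv_smul_smul]
  obtain ⟨J, hJ, h2⟩ := minor_iso hi H hz3 hw h1
  refine ⟨i, z, hz3, ?_⟩
  rw [h2]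
  exact mul_ne_zero hm hJ

end Vale.Agent.P281.H864.Toc
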