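import Vale.Agent.P281.H864.Toc.Fam

/-!
# P281, T-T, block TOC (helper864)
-/

open Set Filter Metric MeasureTheory
open scoped Topology ContDiff ComplexConjugate Manifold

set_option linter.unusedSectionVars false
set_option linter.deprecated false
set_option linter.unusedVariables false

noncomputable section

namespace Vale.Agent.P281.H864.Toc

open Vale.Agent.P281.H64.TK Vale.Agent.P272.K Matrix
open Vale.Agent.P281.H64 (IsProperFibration)
open Vale.Agent.P281.H864.K (uniq ball13 gr gr_change ca_differentiableAt jac_congr)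

section bas
variable {d : ℕ} {E Γ : Type} [TopologicalSpace E] [Group Γ] [MulAction Γ E]

theorem bas_ind {S : Sheets d E Γ} {g : ℕ} {F : E → Fin g → ℂ} {c : Γ → Fin g → ℂ}
    (h : IsBas S F c) : LinearIndependent ℂ (fun (j : Fin g) (γ : Γ) => c γ j) := by
  rw [Fintype.linearIndependent_iff]
  intro s hs j
  have := h.indep s (fun γ => by
    have := congrFun hs γ
    simpa [Finset.sum_apply] using this)
  exact congrFun this j

theorem bas_span {S : Sheets d E Γ} {g g' : ℕ} {F : E → Fin g → ℂ} {c : Γ → Fin g → ℂ}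
    {F' : E → Fin g' → ℂ} {c' : Γ → Fin g' → ℂ} (h : IsBas S F c) (h' : IsBas S F' c') :
    Submodule.span ℂ (Set.range fun (j : Fin g') (γ : Γ) => c' γ j) ≤
      Submodule.span ℂ (Set.range fun (j : Fin g) (γ : Γ) => c γ j) := by
  rw [Submodule.span_le]
  rintro _ ⟨j, rfl⟩
  obtain ⟨s, hs⟩ := h.span _ _ (h'.add j)
  have h1 : (fun γ => c' γ j) = ∑ k, s k • (fun γ => c γ k) := by
    funext γ
    simp only [Finset.sum_apply, Pi.smul_apply, smul_eq_mul]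
    exact hs γ
  show (fun γ => c' γ j) ∈ _
  rw [h1]
  exact Submodule.sum_mem _ fun k _ => Submodule.smul_mem _ _ (Submodule.subset_span ⟨k, rfl⟩)

theorem bas_card {S : Sheets d E Γ} {g g' : ℕ} {F : E → Fin g → ℂ} {c : Γ → Fin g → ℂ}
    {F' : E → Fin g' → ℂ} {c' : Γ → Fin g' → ℂ} (h : IsBas S F c) (h' : IsBas S F' c') :
    g = g' := by
  have h1 := finrank_span_eq_card (bas_ind h)
  have h2 := finrank_span_eq_card (bas_ind h')
  rw [le_antisymm (bas_span h h') (bas_span h' h)] at h2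
  rw [Fintype.card_fin] at h1 h2
  rw [← h1, ← h2]

/-- the Jacobian determinants of two systems of `d` additive functions are proportional, if one of
them is a basis -/
theorem bas_minor [ContinuousConstSMul Γ E] [PreconnectedSpace E] {S : Sheets d E Γ}
    {h F : E → Cm d} {c : Γ → Cm d} (hb : IsBas S (g := d) F c) (H : AddV S h) :
    ∃ a : ℂ, ∀ i, ∀ z ∈ ball (0 : Cm d) 3, S.minor h i z = a * S.minor F i z := by
  choose b hb' using H
  choose s hs using fun a => hb.span _ _ (hb' a)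
  refine ⟨(Matrix.of s).det, fun i z hz => ?_⟩
  have hadd : ∀ a, Add S (fun e => h e a - ∑ j, s a j * F e j) (fun _ => 0) := by
    intro a
    refine ⟨fun i => ?_, fun γ e => ?_⟩
    · refine ((hb' a).hol i).sub ?_
      exact DifferentiableOn.fun_sum fun j _ => ((hb.add j).hol i).const_mul _
    · have h1 := (hb' a).add γ e
      have h2 : ∀ j, F (γ • e) j = F e j + c γ j := fun j => (hb.add j).add γ e
      simp only [h1, h2, hs a γ, mul_add, Finset.sum_add_distrib]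
      ring
  have hconst : ∀ a e, h e a = ∑ j, s a j * F e j + (h (S.σ i z) a - ∑ j, s a j * F (S.σ i z) j) := by
    intro a e
    have := H603.K.unique_of_re S (hadd a) (fun _ => rfl) e (S.σ i z)
    rw [← this]
    ring
  have h1 : (Matrix.of fun a k => dd k (fun z => h (S.σ i z) a) z) =
      Matrix.of s * (Matrix.of fun a k => dd k (fun z => F (S.σ i z) a) z) := by
    ext a k
    simp only [Matrix.of_apply, Matrix.mul_apply, dd]
    have h2 : (fun u => h (S.σ i u) a) = fun u => ∑ j, s a j * F (S.σ i u) j +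
        (h (S.σ i z) a - ∑ j, s a j * F (S.σ i z) j) := by
      funext u
      exact hconst a _
    have h3 : ∀ j, DifferentiableAt ℂ (fun u => F (S.σ i u) j) z := fun j =>
      ca_differentiableAt (hb.add j) hz
    rw [h2, fderiv_add_const, fderiv_fun_sum (fun j _ => (h3 j).const_mul _)]
    rw [ContinuousLinearMap.sum_apply]
    refine Finset.sum_congr rfl fun j _ => ?_
    rw [fderiv_const_mul (h3 j)]
    rfl
  show (Matrix.of fun a k => dd k (fun z => h (S.σ i z) a) z).det = _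
  rw [h1, Matrix.det_mul]
  rfl

end bas

section
variable {p d : ℕ} {Z Y : Type} [TopologicalSpace Z] [T2Space Z] [ChartedSpace (Cm (p + d)) Z]
    [IsManifold 𝓘(ℂ, Cm (p + d)) ω Z] [TopologicalSpace Y] [T2Space Y] [ChartedSpace (Cm p) Y]
    [IsManifold 𝓘(ℂ, Cm p) ω Y]

/-- Being a torus is a locally constant property of the fibre. -/
theorem loc_const (hW : WStmt) (hK : KStmt) (hD : DStmt) (hF1 : F1Stmt) (hB : TBasStmt)
    {f : Z → Y} {S : Set Y}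
    {w : Chart (p + d) Z → Cm (p + d) → Matrix (Fin (p + d)) (Fin (p + d)) ℂ} (hd : 0 < d)
    (hf : ContMDiff 𝓘(ℂ, Cm (p + d)) 𝓘(ℂ, Cm p) ω f)
    (hP : IsProperFibration (n := p + d) (p := p) f S) (hw : IsKahler w)
    (hN : ∀ y ∉ S, NDeg (p + d) p d 0 f y) {y₀ : Y} (hy₀ : y₀ ∉ S) :
    ∃ N : Set Y, IsOpen N ∧ y₀ ∈ N ∧ ∀ y ∈ N, IsTorAt (p + d) p d f y →
      ∀ y' ∈ N, IsTorAt (p + d) p d f y' := by
  obtain ⟨E, Γ, _, _, _, _, _, _, 𝓕, q, χ, t₀, ht₀, hM, hy, i, z, hz, hG⟩ := hN y₀ hy₀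
  obtain ⟨W, hPull, hKF⟩ := hW p d Z Y f w E Γ 𝓕 q χ hf hM hw
  obtain ⟨n, ⟨M⟩⟩ := hF1 d E Γ (𝓕.at t₀ ht₀) hd
  obtain ⟨g, T', hT', F, c, hn, hTo, ht₀', hbas, hF, -⟩ := hD p d E Γ 𝓕 W hd hKF n M t₀ ht₀
  have hO : {t | t ∈ T' ∧ χ.symm t ∉ S} ∈ 𝓝 t₀ := by
    have h1 : ContinuousAt χ.symm t₀ := χ.continuousAt_symm (hM.sub ht₀)
    have h2 : ∀ᶠ t in 𝓝 t₀, χ.symm t ∈ Sᶜ :=
      h1.eventually (hP.isClosed.isOpen_compl.mem_nhds (by rw [hy]; exact hy₀))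
    exact Filter.inter_mem (hTo.mem_nhds ht₀') h2
  obtain ⟨r, hr, hball⟩ := Metric.mem_nhds_iff.1 hO
  have hsub : ball t₀ r ⊆ 𝓕.T := fun t ht => hT' (hball ht).1
  -- transport
  have trans : ∀ (t : Cm p) (ht : t ∈ 𝓕.T) (E' Γ' : Type) [TopologicalSpace E'] [T2Space E']
      [SimplyConnectedSpace E'] [Group Γ'] [MulAction Γ' E'] [ContinuousConstSMul Γ' E']
      (𝓕' : Fam p d E' Γ') (q' : Cm p → E' → Z) (χ' : OpenPartialHomeomorph Y (Cm p))
      (t' : Cm p) (ht' : t' ∈ 𝓕'.T), Model (n := p + d) f 𝓕' χ' q' → χ'.symm t' = χ.symm t →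
      ((𝓕'.at t' ht').IsTor → (𝓕.at t ht).IsTor) ∧ (Nd (𝓕'.at t' ht') → Nd (𝓕.at t ht)) := by
    intro t ht E' Γ' _ _ _ _ _ _ 𝓕' q' χ' t' ht' hM' he
    obtain ⟨W', hPull', hKF'⟩ := hW p d Z Y f w E' Γ' 𝓕' q' χ' hf hM' hw
    obtain ⟨τ, ρ, h1, h2, h3, h4⟩ := hK p d Z Y f w E Γ 𝓕 q χ E' Γ' 𝓕' q' χ' W W' hd hf hM hM' hw
      hPull hPull' t ht t' ht' he.symm
    have hiso : IsoHol (𝓕.at t ht) (𝓕'.at t' ht') τ := h3
    exact ⟨fun h => isTor_iso (ρ := ρ) h1 hiso h,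
      fun h => nd_iso (ρ := ρ) h1 τ.surjective ρ.surjective hiso h⟩
  refine ⟨χ.source ∩ χ ⁻¹' ball t₀ r, χ.isOpen_inter_preimage isOpen_ball, ?_, ?_⟩
  · have h1 : χ (χ.symm t₀) = t₀ := χ.right_inv (hM.sub ht₀)
    rw [← hy]
    refine ⟨χ.map_target (hM.sub ht₀), ?_⟩
    rw [mem_preimage, h1]
    exact mem_ball_self hr
  rintro y₁ ⟨hy₁, hy₁'⟩ hTor y₂ ⟨hy₂, hy₂'⟩
  set t₁ := χ y₁ with ht₁
  have hTor1 : (𝓕.at t₁ (hsub hy₁')).IsTor := by
    obtain ⟨E', Γ', _, _, _, _, _, _, 𝓕', q', χ', t', ht', hM', hy', hT⟩ := hTor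
    exact (trans t₁ (hsub hy₁') E' Γ' 𝓕' q' χ' t' ht' hM' (by rw [hy', ht₁, χ.left_inv hy₁])).1 hT
  obtain ⟨h, H, hm⟩ := hTor1
  have hg : g = d := by
    choose b hb using H
    have hb1 := hB d E Γ (𝓕.at t₁ (hsub hy₁')) h (fun γ a => b a γ) hd (fun a => hb a) hm
    exact bas_card (hbas t₁ (hball hy₁').1) hb1
  subst hg
  have hA : ∀ t (ht : t ∈ ball t₀ r), AddV (𝓕.at t (hsub ht)) (F t) := fun t ht a =>
    ⟨_, (hbas t (hball ht).1).add a⟩
  have hbas' : ∀ t (ht : t ∈ ball t₀ r), IsBas (𝓕.at t (hsub ht)) (F t) (c t) := fun t ht =>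
    hbas t (hball ht).1
  have hNz : ∀ t ∈ ball t₀ r, ∃ i, ∃ z ∈ ball (0 : Cm g) 3, mm 𝓕 F i (t, z) ≠ 0 := by
    intro t ht
    obtain ⟨E', Γ', _, _, _, _, _, _, 𝓕', q', χ', t', ht', hM', hy', i', z', hz', hG'⟩ :=
      hN (χ.symm t) (hball ht).2
    obtain ⟨h', H', i, z, hz, hne⟩ :=
      (trans t (hsub ht) E' Γ' 𝓕' q' χ' t' ht' hM' hy').2 (nd_of_gauss hz' hG')
    obtain ⟨a, ha⟩ := bas_minor (hbas' t ht) H'
    refine ⟨i, z, hz, ?_⟩
    rw [ha i z hz] at hne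
    exact right_ne_zero_of_mul hne
  have h1 : ∀ i, ∀ z ∈ ball (0 : Cm g) 3, mm 𝓕 F i (t₁, z) ≠ 0 := by
    intro i z hz
    obtain ⟨a, ha⟩ := bas_minor (hbas' t₁ hy₁') H
    have hne := hm i z hz
    rw [ha i z hz] at hne
    exact right_ne_zero_of_mul hne
  have h2 := tor_const isOpen_ball (convex_ball t₀ r).isPreconnected hsub
    (fun i t ht z hz j => hF i t (hball ht).1 z hz j) hA hNz hy₁' h1 hy₂'
  refine ⟨E, Γ, inferInstance, inferInstance, inferInstance, inferInstance, inferInstance,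
    inferInstance, 𝓕, q, χ, χ y₂, hsub hy₂', hM, χ.left_inv hy₂, F (χ y₂), hA _ hy₂', ?_⟩
  exact fun i z hz => h2 i z hz

end

/-- **Block TOC.** -/
theorem toc (hW : WStmt) (hK : KStmt) (hD : DStmt) (hF1 : F1Stmt) (hB : TBasStmt) : TocStmt := by
  intro p d Z Y _ _ _ _ _ _ _ _ f S w hd hf hP hS hw hN hT y hy
  by_contra hcon
  let A : Set Y := {y | ∃ N : Set Y, IsOpen N ∧ y ∈ N ∧ ∀ y' ∈ N, IsTorAt (p + d) p d f y'}
  let B : Set Y := {y | ∃ N : Set Y, IsOpen N ∧ y ∈ N ∧ ∀ y' ∈ N, ¬ IsTorAt (p + d) p d f y'}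
  have hAo : IsOpen A := by
    rw [isOpen_iff_mem_nhds]
    rintro y ⟨N, hN, hy, h⟩
    exact mem_of_superset (hN.mem_nhds hy) fun x hx => ⟨N, hN, hx, h⟩
  have hBo : IsOpen B := by
    rw [isOpen_iff_mem_nhds]
    rintro y ⟨N, hN, hy, h⟩
    exact mem_of_superset (hN.mem_nhds hy) fun x hx => ⟨N, hN, hx, h⟩
  have key : ∀ y ∉ S, (IsTorAt (p + d) p d f y → y ∈ A) ∧ (¬ IsTorAt (p + d) p d f y → y ∈ B) := by
    intro y hy
    obtain ⟨N, h1, h2, h3⟩ := loc_const hW hK hD hF1 hB hd hf hP hw hN hy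
    refine ⟨fun h => ⟨N, h1, h2, h3 y h2 h⟩, fun h => ⟨N, h1, h2, fun y' hy' h' => h ?_⟩⟩
    exact h3 y' hy' h' y h2
  obtain ⟨y₁, hy₁, hT₁⟩ := hT
  obtain ⟨y₂, -, ⟨N, -, h1, h2⟩, ⟨N', -, h3, h4⟩⟩ := hS A B hAo hBo (fun x hx => by
    by_cases h : IsTorAt (p + d) p d f x
    · exact Or.inl ((key x hx).1 h)
    · exact Or.inr ((key x hx).2 h)) ⟨y₁, hy₁, (key y₁ hy₁).1 hT₁⟩ ⟨y, hy, (key y hy).2 hcon⟩
  exact h4 y₂ h3 (h2 y₂ h1)

end Vale.Agent.P281.H864.Toc
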