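import Mathlib

/-!
# P281, T-T, block TOC (helper864): Hurwitz' theorem (zeros persist); the lemma and its proof are
helper450's (`P301/H450/Mobile.lean`).
-/

open Set Filter Metric
open scoped Topology

noncomputable section

namespace Vale.Agent.P281.H864.Toc

variable {E : Type*} [NormedAddCommGroup E] [NormedSpace ℂ E]

/-- zeros persist: if `h(a) = 0` and `h` is not identically zero on the line through `a` in the
direction `v`, then `h` has zeros on all neighbouring lines, near `a`. -/
theorem hurwitz {h : E → ℂ} {a v : E} (ha : AnalyticAt ℂ h a) (h0 : h a = 0)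
    (hv : ¬ ∀ᶠ t in 𝓝 (0 : ℂ), h (a + t • v) = 0) {U : Set E} (hU : U ∈ 𝓝 a) :
    ∀ᶠ y in 𝓝 a, ∃ t : ℂ, y + t • v ∈ U ∧ h (y + t • v) = 0 := by
  have hlin : Continuous fun p : E × ℂ => p.1 + p.2 • v := by fun_prop
  have hmap : Tendsto (fun t : ℂ => a + t • v) (𝓝 0) (𝓝 a) := by
    have : Continuous fun t : ℂ => a + t • v := by fun_prop
    simpa using this.tendsto 0
  -- a neighbourhood where `h` is analytic
  obtain ⟨R, hR, hb⟩ := Metric.eventually_nhds_iff_ball.1 (ha.eventually_analyticAt.and hU)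
  have hg : AnalyticAt ℂ (fun t : ℂ => h (a + t • v)) 0 := by
    have h1 : AnalyticAt ℂ (fun t : ℂ => a + t • v) 0 :=
      analyticAt_const.add (analyticAt_id.smul analyticAt_const)
    refine AnalyticAt.fun_comp (g := h) (f := fun t : ℂ => a + t • v) ?_ h1
    simpa using ha
  have hne := (hg.eventually_eq_zero_or_eventually_ne_zero).resolve_left hv
  rw [eventually_nhdsWithin_iff] at hne
  obtain ⟨δ, hδ, hbδ⟩ := Metric.eventually_nhds_iff_ball.1
    (hne.and (hmap.eventually (Metric.ball_mem_nhds a hR)))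
  set δ' := δ / 2 with hδ'
  have hδ'0 : 0 < δ' := by positivity
  have hin : ∀ t ∈ Metric.closedBall (0 : ℂ) δ', t ∈ Metric.ball (0 : ℂ) δ := fun t ht =>
    lt_of_le_of_lt (Metric.mem_closedBall.1 ht) (by linarith)
  have hball : ∀ t ∈ Metric.closedBall (0 : ℂ) δ', a + t • v ∈ Metric.ball a R := fun t ht =>
    (hbδ t (hin t ht)).2
  -- minimum on the circle
  have hcirc : IsCompact (Metric.sphere (0 : ℂ) δ') := isCompact_sphere _ _
  have hcont : ContinuousOn (fun t : ℂ => ‖h (a + t • v)‖) (Metric.sphere (0 : ℂ) δ') := by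
    intro t ht
    have h1 := (hb _ (hball t (Metric.sphere_subset_closedBall ht))).1.continuousAt
    have h2 : ContinuousAt (fun t : ℂ => a + t • v) t := by fun_prop
    exact (ContinuousAt.comp (g := h) (f := fun t : ℂ => a + t • v) h1 h2).norm.continuousWithinAt
  obtain ⟨t₀, ht₀, hmin⟩ := hcirc.exists_isMinOn
    (NormedSpace.sphere_nonempty.2 hδ'0.le) hcont
  set m := ‖h (a + t₀ • v)‖ with hm
  have hm0 : 0 < m := by
    rw [hm, norm_pos_iff]
    refine (hbδ t₀ (hin _ (Metric.sphere_subset_closedBall ht₀))).1 ?_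
    intro h1
    have : t₀ = 0 := h1
    rw [this] at ht₀
    simp at ht₀
    linarith
  -- uniformity
  have e1 : ∀ᶠ y in 𝓝 a, ∀ t ∈ Metric.sphere (0 : ℂ) δ', m / 2 < ‖h (y + t • v)‖ := by
    refine hcirc.eventually_forall_of_forall_eventually fun t ht => ?_
    have h1 := (hb _ (hball t (Metric.sphere_subset_closedBall ht))).1.continuousAt
    have h2 : ContinuousAt (fun p : E × ℂ => ‖h (p.1 + p.2 • v)‖) (a, t) := by
      refine ContinuousAt.norm ?_
      exact ContinuousAt.comp (g := h) (f := fun p : E × ℂ => p.1 + p.2 • v) h1 hlin.continuousAt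
    have h3 : m / 2 < ‖h (a + t • v)‖ := lt_of_lt_of_le (by linarith) (hmin ht)
    exact h2.eventually (lt_mem_nhds h3)
  have e2 : ∀ᶠ y in 𝓝 a, ∀ t ∈ Metric.closedBall (0 : ℂ) δ', y + t • v ∈ Metric.ball a R := by
    refine (isCompact_closedBall _ _).eventually_forall_of_forall_eventually fun t ht => ?_
    exact hlin.continuousAt.eventually (Metric.isOpen_ball.mem_nhds (hball t ht))
  have e3 : ∀ᶠ y in 𝓝 a, ‖h y‖ < m / 2 := by
    have h1 : ContinuousAt (fun y => ‖h y‖) a := ha.continuousAt.norm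
    have h2 : ‖h a‖ < m / 2 := by rw [h0, norm_zero]; positivity
    exact h1.eventually (gt_mem_nhds h2)
  filter_upwards [e1, e2, e3] with y h1 h2 h3
  by_contra hcon
  push Not at hcon
  have hnz : ∀ t ∈ Metric.closedBall (0 : ℂ) δ', h (y + t • v) ≠ 0 := fun t ht =>
    hcon t (hb _ (h2 t ht)).2
  have han : ∀ t ∈ Metric.closedBall (0 : ℂ) δ', DifferentiableAt ℂ (fun t => (h (y + t • v))⁻¹) t := by
    intro t ht
    have h4 : AnalyticAt ℂ (fun t : ℂ => y + t • v) t :=
      analyticAt_const.add (analyticAt_id.smul analyticAt_const)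
    have h5 : AnalyticAt ℂ (fun t : ℂ => h (y + t • v)) t :=
      AnalyticAt.fun_comp (g := h) (f := fun t : ℂ => y + t • v) (hb _ (h2 t ht)).1 h4
    exact (h5.inv (hnz t ht)).differentiableAt
  have hd : DiffContOnCl ℂ (fun t => (h (y + t • v))⁻¹) (Metric.ball (0 : ℂ) δ') := by
    refine DifferentiableOn.diffContOnCl ?_
    rw [closure_ball _ hδ'0.ne']
    exact fun t ht => (han t ht).differentiableWithinAt
  have h6 := Complex.norm_le_of_forall_mem_frontier_norm_le Metric.isBounded_ball hd
    (C := 2 / m) (z := 0) (fun t ht => ?_) (subset_closure (Metric.mem_ball_self hδ'0))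
  · rw [zero_smul, add_zero, norm_inv] at h6
    have h7 : h y ≠ 0 := by
      have := hnz 0 (Metric.mem_closedBall_self hδ'0.le)
      simpa using this
    have h8 : 0 < ‖h y‖ := norm_pos_iff.2 h7
    rw [inv_le_comm₀ h8 (by positivity), inv_div] at h6
    linarith
  · rw [frontier_ball _ hδ'0.ne'] at ht
    have h9 := h1 t ht
    rw [norm_inv, inv_le_comm₀ (by linarith) (by positivity), inv_div]
    exact h9.le

end Vale.Agent.P281.H864.Toc
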