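import Vale.Agent.P281.H864.Toc.Trans
import Vale.Agent.P281.H864.Toc.Hur

/-!
# P281, T-T, block TOC (helper864): the Jacobian determinant in a family
-/

open Set Filter Metric MeasureTheory
open scoped Topology ContDiff ComplexConjugate

set_option linter.unusedSectionVars false
set_option linter.deprecated false
set_option linter.unusedVariables false

noncomputable section

namespace Vale.Agent.P281.H864.Toc

open Vale.Agent.P281.H64.TK Vale.Agent.P272.K Matrix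
open Vale.Agent.P281.H864.K (uniq ball13 gr gr_change ca_differentiableAt jac_congr V isOpen_V)

section one
variable {d : ℕ} {E Γ : Type} [TopologicalSpace E] [Group Γ] [MulAction Γ E]

theorem det_analyticAt {X : Type*} [NormedAddCommGroup X] [NormedSpace ℂ X]
    {M : X → Matrix (Fin d) (Fin d) ℂ} {x : X} (h : ∀ i j, AnalyticAt ℂ (fun x => M x i j) x) :
    AnalyticAt ℂ (fun x => (M x).det) x := by
  have h1 : (fun x => (M x).det) = fun x => ∑ σ : Equiv.Perm (Fin d),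
      ((Equiv.Perm.sign σ : ℤ) : ℂ) * ∏ i, M x (σ i) i := by
    funext x
    rw [Matrix.det_apply']
  rw [h1]
  refine Finset.analyticAt_fun_sum _ fun σ _ => ?_
  exact analyticAt_const.mul (Finset.analyticAt_fun_prod _ fun i _ => h _ _)

theorem apply_analyticAt {X : Type*} [NormedAddCommGroup X] [NormedSpace ℂ X]
    {g : X → (X →L[ℂ] ℂ)} {x : X} (h : AnalyticAt ℂ g x) (v : X) :
    AnalyticAt ℂ (fun x => g x v) x :=
  ((ContinuousLinearMap.apply ℂ ℂ v).analyticAt (g x)).comp h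

theorem minor_analyticAt {S : Sheets d E Γ} {h : E → Cm d} (H : AddV S h) (i : Fin S.N)
    {z : Cm d} (hz : z ∈ ball (0 : Cm d) 3) : AnalyticAt ℂ (S.minor h i) z := by
  refine det_analyticAt (M := fun z => Matrix.of fun j k => dd k (fun z => h (S.σ i z) j) z)
    fun a k => ?_
  obtain ⟨b, hb⟩ := H a
  have h1 : AnalyticAt ℂ (fun z => h (S.σ i z) a) z := K.Add.analytic hb i z hz
  simp only [Matrix.of_apply, dd]
  exact apply_analyticAt h1.fderiv _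

/-- the Jacobian determinant is not identically zero near any point, if it is not zero somewhere -/
theorem minor_nontriv [ContinuousConstSMul Γ E] [PreconnectedSpace E] {S : Sheets d E Γ}
    {h : E → Cm d} (H : AddV S h) {i₀ : Fin S.N} {z₀ : Cm d} (hz₀ : z₀ ∈ ball (0 : Cm d) 3)
    (h0 : S.minor h i₀ z₀ ≠ 0) (i : Fin S.N) {z : Cm d} (hz : z ∈ ball (0 : Cm d) 3) :
    ¬ ∀ᶠ u in 𝓝 z, S.minor h i u = 0 := by
  have key : ∀ i, (∃ z ∈ ball (0 : Cm d) 3, ∀ᶠ u in 𝓝 z, S.minor h i u = 0) →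
      ∀ z ∈ ball (0 : Cm d) 3, S.minor h i z = 0 := by
    rintro i ⟨z, hz, h1⟩ w hw
    have h2 : AnalyticOnNhd ℂ (S.minor h i) (ball 0 3) := fun u hu => minor_analyticAt H i hu
    exact h2.eqOn_zero_of_preconnected_of_eventuallyEq_zero
      (convex_ball (0 : Cm d) 3).isPreconnected hz h1 hw
  intro hcon
  have hi := key i ⟨z, hz, hcon⟩
  let good : Fin S.N → Prop := fun i => ∃ z ∈ ball (0 : Cm d) 3, S.minor h i z ≠ 0
  let A : Set E := ⋃ i ∈ {i | good i}, V S i (ball 0 3)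
  let B : Set E := ⋃ i ∈ {i | ¬ good i}, V S i (ball 0 3)
  have hA : IsOpen A := isOpen_biUnion fun i _ => isOpen_V isOpen_ball subset_rfl
  have hB : IsOpen B := isOpen_biUnion fun i _ => isOpen_V isOpen_ball subset_rfl
  have hcov : (univ : Set E) ⊆ A ∪ B := by
    intro e _
    obtain ⟨γ, i, z, hz, he⟩ := S.cover e
    have hz3 : z ∈ ball (0 : Cm d) 3 := ball13 (by simpa using hz)
    by_cases hg : good i
    · exact Or.inl (mem_biUnion (x := i) hg ⟨γ, z, hz3, he⟩)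
    · exact Or.inr (mem_biUnion (x := i) hg ⟨γ, z, hz3, he⟩)
  have hAne : (univ ∩ A).Nonempty :=
    ⟨S.σ i₀ z₀, mem_univ _, mem_biUnion (x := i₀) ⟨z₀, hz₀, h0⟩ ⟨1, z₀, hz₀, one_smul _ _⟩⟩
  have hBne : (univ ∩ B).Nonempty := by
    refine ⟨S.σ i z, mem_univ _, mem_biUnion (x := i) ?_ ⟨1, z, hz, one_smul _ _⟩⟩
    rintro ⟨w, hw, hw'⟩
    exact hw' (hi w hw)
  obtain ⟨e, -, heA, heB⟩ := isPreconnected_univ A B hA hB hcov hAne hBne
  obtain ⟨j, hj, γ, w, hw, he⟩ := mem_iUnion₂.1 heA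
  obtain ⟨k, hk, δ, v, hv, he'⟩ := mem_iUnion₂.1 heB
  have h1 : S.σ j w = (γ⁻¹ * δ) • S.σ k v := by
    rw [mul_smul, he', ← he, inv_smul_smul]
  obtain ⟨θ, g1, g2, g3⟩ := S.hol j k w hw v hv _ h1
  have g4 : ∀ᶠ u in 𝓝 w, θ u ∈ ball (0 : Cm d) 3 :=
    g1.continuousAt.eventually (isOpen_ball.mem_nhds (by rwa [g2]))
  have g5 : ∀ᶠ u in 𝓝 w, S.minor h j u = 0 := by
    filter_upwards [g3, g4, isOpen_ball.mem_nhds hw] with u a1 a2 a3
    rw [minor_sheet H a3 a2 a1]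
    by_contra hne
    exact hk ⟨θ u, a2, hne⟩
  obtain ⟨z', hz', hne⟩ := hj
  exact hne (key j ⟨w, hw, g5⟩ z' hz')

end one

section fam
variable {p d : ℕ} {E Γ : Type} [TopologicalSpace E] [Group Γ] [MulAction Γ E]

/-- the Jacobian determinant of the maps `F t : E → ℂ^d` -/
def mm (𝓕 : Fam p d E Γ) (F : Cm p → E → Cm d) (i : Fin 𝓕.N) (q : Cm p × Cm d) : ℂ :=
  (Matrix.of fun a k => dd k (fun z => F q.1 (𝓕.σ i q.1 z) a) q.2).det

theorem mm_eq (𝓕 : Fam p d E Γ) (F : Cm p → E → Cm d) (i : Fin 𝓕.N) {t : Cm p} (ht : t ∈ 𝓕.T)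
    (z : Cm d) : mm 𝓕 F i (t, z) = (𝓕.at t ht).minor (F t) i z := rfl

/-- the bases depend holomorphically on the parameter -/
def HolF (𝓕 : Fam p d E Γ) (F : Cm p → E → Cm d) (T' : Set (Cm p)) : Prop :=
  ∀ i, ∀ t ∈ T', ∀ z ∈ ball (0 : Cm d) 3, ∀ j,
    AnalyticAt ℂ (fun q : Cm p × Cm d => F q.1 (𝓕.σ i q.1 q.2) j) (t, z)

theorem mm_analyticAt {𝓕 : Fam p d E Γ} {F : Cm p → E → Cm d} {T' : Set (Cm p)}
    (hT : IsOpen T') (hF : HolF 𝓕 F T') (i : Fin 𝓕.N) {t : Cm p} (ht : t ∈ T') {z : Cm d}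
    (hz : z ∈ ball (0 : Cm d) 3) : AnalyticAt ℂ (mm 𝓕 F i) (t, z) := by
  have h1 : (fun q : Cm p × Cm d => (Matrix.of fun a k =>
      fderiv ℂ (fun q : Cm p × Cm d => F q.1 (𝓕.σ i q.1 q.2) a) q (0, Pi.single k 1)).det)
        =ᶠ[𝓝 (t, z)] mm 𝓕 F i := by
    have h2 : T' ×ˢ ball (0 : Cm d) 3 ∈ 𝓝 (t, z) :=
      (hT.prod isOpen_ball).mem_nhds ⟨ht, hz⟩
    filter_upwards [h2] with q hq
    unfold mm
    congr 1
    ext a k
    simp only [Matrix.of_apply, dd]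
    have h3 : HasFDerivAt (fun q : Cm p × Cm d => F q.1 (𝓕.σ i q.1 q.2) a)
        (fderiv ℂ (fun q : Cm p × Cm d => F q.1 (𝓕.σ i q.1 q.2) a) q) (q.1, q.2) :=
      (hF i q.1 hq.1 q.2 hq.2 a).differentiableAt.hasFDerivAt
    have h4 : HasFDerivAt (fun u : Cm d => (q.1, u)) (ContinuousLinearMap.inr ℂ (Cm p) (Cm d)) q.2 :=
      hasFDerivAt_prodMk_right q.1 q.2
    have h5 := (HasFDerivAt.comp q.2 h3 h4).fderiv
    have h6 : fderiv ℂ (fun z => F q.1 (𝓕.σ i q.1 z) a) q.2 =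
        (fderiv ℂ (fun q : Cm p × Cm d => F q.1 (𝓕.σ i q.1 q.2) a) q).comp
          (ContinuousLinearMap.inr ℂ (Cm p) (Cm d)) := h5
    rw [h6]
    rfl
  refine AnalyticAt.congr ?_ h1
  refine det_analyticAt fun a k => ?_
  simp only [Matrix.of_apply]
  exact apply_analyticAt (hF i t ht z hz a).fderiv _

/-- tori are open -/
theorem tor_open {𝓕 : Fam p d E Γ} {F : Cm p → E → Cm d} {T' : Set (Cm p)} (hT : IsOpen T')
    (hTT : T' ⊆ 𝓕.T) (hF : HolF 𝓕 F T') (hA : ∀ t (ht : t ∈ T'), AddV (𝓕.at t (hTT ht)) (F t)) :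
    IsOpen {t | t ∈ T' ∧ ∀ i, ∀ z ∈ ball (0 : Cm d) 3, mm 𝓕 F i (t, z) ≠ 0} := by
  rw [isOpen_iff_mem_nhds]
  rintro t ⟨ht, h0⟩
  have h1 : ∀ i, ∀ᶠ s in 𝓝 t, ∀ z ∈ closedBall (0 : Cm d) 1, mm 𝓕 F i (s, z) ≠ 0 := by
    intro i
    refine (isCompact_closedBall _ _).eventually_forall_of_forall_eventually fun z hz => ?_
    have hz3 := K.cball13 hz
    exact (mm_analyticAt hT hF i ht hz3).continuousAt.eventually_ne (h0 i z hz3)
  have h2 := eventually_all.2 h1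
  filter_upwards [h2, hT.mem_nhds ht] with s hs hsT
  refine ⟨hsT, fun i z hz => ?_⟩
  obtain ⟨γ, j, w, hw, he⟩ := (𝓕.at s (hTT hsT)).cover ((𝓕.at s (hTT hsT)).σ i z)
  have hw1 : w ∈ closedBall (0 : Cm d) 1 := by simpa using hw.le
  have h3 := hs j w hw1
  rw [mm_eq 𝓕 F j (hTT hsT)] at h3
  rw [mm_eq 𝓕 F i (hTT hsT)]
  intro h4
  exact h3 ((minor_sheet (hA s hsT) hz (K.cball13 hw1) he.symm).1 h4)

/-- zeros of the Jacobian determinant persist -/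
theorem ntor_open [ContinuousConstSMul Γ E] [PreconnectedSpace E] {𝓕 : Fam p d E Γ}
    {F : Cm p → E → Cm d} {T' : Set (Cm p)} (hT : IsOpen T')
    (hTT : T' ⊆ 𝓕.T) (hF : HolF 𝓕 F T') (hA : ∀ t (ht : t ∈ T'), AddV (𝓕.at t (hTT ht)) (F t))
    (hN : ∀ t ∈ T', ∃ i, ∃ z ∈ ball (0 : Cm d) 3, mm 𝓕 F i (t, z) ≠ 0) :
    IsOpen {t | t ∈ T' ∧ ¬ ∀ i, ∀ z ∈ ball (0 : Cm d) 3, mm 𝓕 F i (t, z) ≠ 0} := by
  rw [isOpen_iff_mem_nhds]
  rintro t ⟨ht, h0⟩
  push Not at h0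
  obtain ⟨i, z, hz, h0⟩ := h0
  obtain ⟨i₀, z₀, hz₀, hne⟩ := hN t ht
  have h1 : ¬ ∀ᶠ u in 𝓝 z, mm 𝓕 F i (t, u) = 0 :=
    minor_nontriv (S := 𝓕.at t (hTT ht)) (hA t ht) hz₀ hne i hz
  -- a line on which the determinant is not zero
  have h2 : ∃ v : Cm d, ¬ ∀ᶠ s in 𝓝 (0 : ℂ), mm 𝓕 F i (t, z + s • v) = 0 := by
    by_contra hcon
    push Not at hcon
    apply h1
    obtain ⟨r, hr, hb⟩ := Metric.isOpen_iff.1 (isOpen_ball (x := (0 : Cm d)) (ε := 3)) z hz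
    filter_upwards [ball_mem_nhds z hr] with u hu
    let v := u - z
    let f : ℂ → ℂ := fun s => mm 𝓕 F i (t, z + s • v)
    let U : Set ℂ := {s | z + s • v ∈ ball z r}
    have hU : IsOpen U := isOpen_ball.preimage (by fun_prop)
    have hUc : Convex ℝ U := by
      intro a ha b hb' α β hα hβ hαβ
      have e1 : z + (α • a + β • b) • v = α • (z + a • v) + β • (z + b • v) := by
        have : z = (α + β) • z := by rw [hαβ, one_smul]
        conv_lhs => rw [this]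
        simp only [add_smul, smul_add, smul_assoc]
        abel
      show z + (α • a + β • b) • v ∈ ball z r
      rw [e1]
      exact convex_ball z r ha hb' hα hβ hαβ
    have h0U : (0 : ℂ) ∈ U := by
      show z + (0 : ℂ) • v ∈ ball z r
      simpa using hr
    have h1U : (1 : ℂ) ∈ U := by
      show z + (1 : ℂ) • v ∈ ball z r
      rw [one_smul, add_sub_cancel]
      exact hu
    have hfa : AnalyticOnNhd ℂ f U := by
      intro s hs
      have e1 : AnalyticAt ℂ (mm 𝓕 F i) (t, z + s • v) := mm_analyticAt hT hF i ht (hb hs)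
      have e2 : AnalyticAt ℂ (fun s : ℂ => (t, z + s • v)) s := by fun_prop
      exact AnalyticAt.fun_comp (g := mm 𝓕 F i) (f := fun s : ℂ => (t, z + s • v)) e1 e2
    have h3 := hfa.eqOn_zero_of_preconnected_of_eventuallyEq_zero hUc.isPreconnected h0U (hcon v) h1U
    have h4 : f 1 = mm 𝓕 F i (t, u) := by
      show mm 𝓕 F i (t, z + (1 : ℂ) • v) = _
      rw [one_smul, add_sub_cancel]
    rw [← h4, h3]
    rfl
  obtain ⟨v, hv⟩ := h2
  have h3 := hurwitz (h := mm 𝓕 F i) (a := (t, z)) (v := ((0 : Cm p), v))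
    (mm_analyticAt hT hF i ht hz) h0 (by
      simpa using hv) (U := univ ×ˢ ball (0 : Cm d) 3)
    ((isOpen_univ.prod isOpen_ball).mem_nhds ⟨mem_univ _, hz⟩)
  have h4 : Tendsto (fun s : Cm p => (s, z)) (𝓝 t) (𝓝 (t, z)) :=
    (by fun_prop : Continuous fun s : Cm p => (s, z)).tendsto t
  filter_upwards [h4.eventually h3, hT.mem_nhds ht] with s hs hsT
  obtain ⟨c, h5, h6⟩ := hs
  refine ⟨hsT, fun hall => ?_⟩
  have h7 : ((s, z) : Cm p × Cm d) + c • ((0 : Cm p), v) = (s, z + c • v) := by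
    ext <;> simp
  rw [h7] at h5 h6
  exact hall i _ h5.2 h6

theorem tor_const [ContinuousConstSMul Γ E] [PreconnectedSpace E] {𝓕 : Fam p d E Γ}
    {F : Cm p → E → Cm d} {T' : Set (Cm p)} (hT : IsOpen T') (hTc : IsPreconnected T')
    (hTT : T' ⊆ 𝓕.T) (hF : HolF 𝓕 F T') (hA : ∀ t (ht : t ∈ T'), AddV (𝓕.at t (hTT ht)) (F t))
    (hN : ∀ t ∈ T', ∃ i, ∃ z ∈ ball (0 : Cm d) 3, mm 𝓕 F i (t, z) ≠ 0)
    {t₁ : Cm p} (ht₁ : t₁ ∈ T') (h1 : ∀ i, ∀ z ∈ ball (0 : Cm d) 3, mm 𝓕 F i (t₁, z) ≠ 0)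
    {t : Cm p} (ht : t ∈ T') : ∀ i, ∀ z ∈ ball (0 : Cm d) 3, mm 𝓕 F i (t, z) ≠ 0 := by
  by_contra hcon
  obtain ⟨s, -, h2, h3⟩ := hTc _ _ (tor_open hT hTT hF hA) (ntor_open hT hTT hF hA hN) (by
      intro s hs
      by_cases h : ∀ i, ∀ z ∈ ball (0 : Cm d) 3, mm 𝓕 F i (s, z) ≠ 0
      · exact Or.inl ⟨hs, h⟩
      · exact Or.inr ⟨hs, h⟩) ⟨t₁, ht₁, ht₁, h1⟩ ⟨t, ht, ht, hcon⟩
  exact h3.2 h2.2

end fam

end Vale.Agent.P281.H864.Toc
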